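import Vale.Agent.P322.Exact

/-!
The Courtade-Kumar inequality `I(f(X);Y) ≤ 1 - h₂(ε)` holds exactly for every Boolean function
of any number of variables, balanced or not, at every noise level `ε ≤ 2^(-60)`.
-/

namespace Vale.Agent.Results.P322.AExactLowNoise

open Vale.Agent.P322

theorem result (ε : ℝ) (h0 : 0 ≤ ε) (h1 : ε ≤ 1 / 2 ^ 60) (n : ℕ) (f : Cube n → Bool) :
    mutualInfo ε f ≤ 1 - h2 ε :=
  exact_low_noise_all h0 h1 f

end Vale.Agent.Results.P322.AExactLowNoise
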