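import Vale.Agent.P322.Asymptotic

/-!
For every `c < 1` and all sufficiently small `ε > 0`, every Boolean function `f` on the cube
`{-1,1}^n`, of any dimension `n`, satisfies `I(f(X);Y) ≤ 1 - c h₂(ε)`.
-/

namespace Vale.Agent.Results.P322.LowNoiseSharp

open Vale.Agent.P322

theorem result (c : ℝ) (hc : c < 1) :
    ∃ ε₀ : ℝ, 0 < ε₀ ∧ ∀ ε : ℝ, 0 < ε → ε < ε₀ → ∀ (n : ℕ) (f : Cube n → Bool),
      mutualInfo ε f ≤ 1 - c * h2 ε :=
  low_noise hc

end Vale.Agent.Results.P322.LowNoiseSharp
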