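import Vale.Agent.P322.Power

/-!
A dimension-free power inequality for the noise operator on the cube.
-/

namespace Vale.Agent.Results.P322.PowerInequality

open Vale.Agent.P322

theorem result (ε γ : ℝ) (h0 : 0 ≤ ε) (h1 : ε ≤ 1) (hγ : 1 / 2 ≤ γ) (hγ1 : γ < 1) (n : ℕ)
    (g : Cube n → ℝ) (hg : ∀ x, 0 ≤ g x ∧ g x ≤ 1) :
    (γ * (ε * (1 - ε))) ^ γ * (4 * avg g * (1 - avg g)) ≤
      avg (fun y => (noise ε g y * (1 - noise ε g y)) ^ γ) :=
  power_ineq h0 h1 hγ hγ1 g hg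

end Vale.Agent.Results.P322.PowerInequality
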